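import Mathlib.Logic.Relation
import Mathlib.Data.Fintype.Basic

namespace Vale.Agent.P343

/-- The symbols that can stand on the tape: the two endmarkers and the letters. -/
inductive TapeSym (α : Type) : Type
  | leftEnd : TapeSym α
  | rightEnd : TapeSym α
  | letter : α → TapeSym α

/-- The three possible head moves. -/
inductive Move : Type
  | left : Move
  | stay : Move
  | right : Move

/-- The symbol in cell `i` of the tape that holds `w` between the two endmarkers:
cell `0` holds the left endmarker, cells `1, ..., w.length` hold the letters of `w`,
cell `w.length + 1` holds the right endmarker. -/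
def tape {α : Type} (w : List α) (i : ℕ) : TapeSym α :=
  if i = 0 then TapeSym.leftEnd
  else if h : i - 1 < w.length then TapeSym.letter (w.get ⟨i - 1, h⟩)
  else TapeSym.rightEnd

/-- A two-way nondeterministic finite automaton with input alphabet `α` and
set of states `σ`; `step p a q mv` says that in state `p` on symbol `a` it may enter
state `q` and move the head by `mv`.  It never moves beyond an endmarker. -/
structure TwoNFA (α : Type) (σ : Type) : Type where
  start : σ
  accept : Set σ
  step : σ → TapeSym α → σ → Move → Prop
  not_beyond_left : ∀ p q, ¬ step p TapeSym.leftEnd q Move.left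
  not_beyond_right : ∀ p q, ¬ step p TapeSym.rightEnd q Move.right

variable {α σ : Type}

/-- One computation step on input `w`; a configuration is (head position, state). -/
inductive TwoNFA.Next (A : TwoNFA α σ) (w : List α) : ℕ × σ → ℕ × σ → Prop
  | left (i : ℕ) (p q : σ) : A.step p (tape w (i + 1)) q Move.left →
      TwoNFA.Next A w (i + 1, p) (i, q)
  | stay (i : ℕ) (p q : σ) : A.step p (tape w i) q Move.stay →
      TwoNFA.Next A w (i, p) (i, q)
  | right (i : ℕ) (p q : σ) : A.step p (tape w i) q Move.right →
      TwoNFA.Next A w (i, p) (i + 1, q)

/-- `w` is accepted if some finite computation that starts on the left endmarker in the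
start state reaches an accepting state. -/
def TwoNFA.Accepts (A : TwoNFA α σ) (w : List α) : Prop :=
  ∃ i q, Relation.ReflTransGen (A.Next w) (0, A.start) (i, q) ∧ q ∈ A.accept

/-- Deterministic: at most one transition for each state and symbol. -/
def TwoNFA.Deterministic (A : TwoNFA α σ) : Prop :=
  ∀ p a q q' mv mv', A.step p a q mv → A.step p a q' mv' → q = q' ∧ mv = mv'

/-- One-way: the head never moves left. -/
def TwoNFA.OneWay (A : TwoNFA α σ) : Prop :=
  ∀ p a q, ¬ A.step p a q Move.left

/-- Two automata over the same alphabet are equivalent if they accept the same words. -/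
def Equivalent {σ' : Type} (A : TwoNFA α σ) (B : TwoNFA α σ') : Prop :=
  ∀ w, A.Accepts w ↔ B.Accepts w

end Vale.Agent.P343
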